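import Vale.Agent.P203.H895.Inv
import Vale.Agent.P203.Dg.Braid
import Vale.Agent.P203.Dg.Act

/-! P203: the facts about the twists. -/

set_option linter.all false

namespace Vale.Agent.P203.Dg.H895

open Vale.Agent.P203.Mod

variable {S X Λ : Type} [Fintype X] [DecidableEq X] [Fintype Λ] [DecidableEq Λ] [DecidableEq S]

theorem twistFacts (k : Type) [Field k] [CharP k 2] (Γ : FGraph S X Λ) : TwistFacts k Γ where
  inv1 P _ hP V := inv1 hP V
  inv2 P _ hP V := inv2 hP V
  braid r s l0 h V := DG.sim_braid r s l0 h V _ _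

end Vale.Agent.P203.Dg.H895
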