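import Vale.Agent.P203.Dg.Funct

/-! P203: `twist` and `twistInv` are inverse to each other up to `Sim` (strict maps). -/

set_option linter.all false

namespace Vale.Agent.P203.Dg

open Vale.Agent.P203.Mod

variable {S X Λ : Type} [Fintype X] [DecidableEq X] [Fintype Λ] [DecidableEq Λ] [DecidableEq S]
variable {k : Type} [Field k] {Γ : FGraph S X Λ} {P : X → Prop} [DecidablePred P]

namespace H895

variable [CharP k 2] (hP : Indep Γ P) (V : DG k Γ)

theorem nb_not {x : X} (hP : Indep Γ P) (hx : P x) (p : Γ.Nb x) : ¬ P p.1.1 := hP _ _ _ p.2 hx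

theorem twist_i_of {x : X} (hx : P x) (ν : (V.twist P hP).N x) :
    (V.twist P hP).i x ν = (0, fun p => V.tval P p.1.1 (ν p), 0) := by
  rw [DG.i_apply]
  have h1 : ∀ p : Γ.Nb x, (V.twist P hP).a p.1.1 x p.1.2 (ν p) =
      V.tinc P p.1.1 x p.1.2 ((fun p : Γ.Nb x => V.tval P p.1.1 (ν p)) p) := fun p => rfl
  simp only [h1]
  exact DG.sum_tinc (V := V) hx _

theorem twistInv_i (x : X) (ν : (V.twistInv P hP).N x) :
    (V.twistInv P hP).i x ν = V.uinc P x (∑ p : Γ.Nb x, V.uout P p.1.1 x p.1.2 (ν p)) := by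
  rw [DG.i_apply, map_sum]
  rfl

/-! ### `V → twistInv (twist V)` -/

/-- the map -/
def psi (x : X) : V.V x →ₗ[k] (V.twist P hP).TV x :=
  if P x then LinearMap.prod (LinearMap.inl k _ _)
      (LinearMap.prod ((LinearMap.pi fun p => (LinearMap.inr k _ _).comp
        ((LinearMap.inr k _ _).comp (V.a x p.1.1 p.1.2)))) 0)
  else (LinearMap.inr k _ _).comp ((LinearMap.inr k _ _).comp
    ((LinearMap.inr k _ _).comp (LinearMap.inr k _ _)))

theorem psi_of {x : X} (hx : P x) (v : V.V x) :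
    psi hP V x v = ((v, 0, 0), (fun p : Γ.Nb x => ((0, 0, V.a x p.1.1 p.1.2 v) : V.TV p.1.1)), 0) := by
  simp only [psi, if_pos hx]
  rfl

theorem psi_not {x : X} (hx : ¬ P x) (v : V.V x) :
    psi hP V x v = (0, 0, (0, 0, v)) := by
  simp only [psi, if_neg hx]
  rfl

/-- the natural map `V → twistInv (twist V)` -/
def Psi : HomS V ((V.twist P hP).twistInv P hP) where
  f x := psi hP V x
  d_f x v := by
    change (V.twist P hP).ud x (psi hP V x v) = psi hP V x (V.d x v)
    by_cases hx : P x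
    · rw [psi_of hP V hx, psi_of hP V hx, DG.ud_apply, twist_i_of hP V hx]
      refine Prod.ext ?_ (Prod.ext ?_ ?_)
      · change ((0 : V.V x), (fun p : Γ.Nb x => V.tval P p.1.1 (0, 0, V.a x p.1.1 p.1.2 v)),
          (0 : V.V x)) + V.td x (v, 0, 0) = (V.d x v, 0, 0)
        have h1 : (fun p : Γ.Nb x => V.tval P p.1.1 (0, 0, V.a x p.1.1 p.1.2 v)) = V.j x v := by
          funext p
          rw [DG.tval_not (nb_not hP hx p)]
          rfl
        rw [h1, DG.td_apply]
        refine Prod.ext ?_ (Prod.ext ?_ ?_)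
        · exact zero_add _
        · change V.j x v + (V.j x v + V.dN x 0) = 0
          rw [map_zero, add_zero]
          exact c2_add k _
        · change (0 : V.V x) + V.d x 0 = 0
          rw [map_zero, add_zero]
      · funext p
        change V.td p.1.1 (0, 0, V.a x p.1.1 p.1.2 v) = (0, 0, V.a x p.1.1 p.1.2 (V.d x v))
        rw [DG.td_apply, map_zero, map_zero, map_zero, add_zero, V.d_a p.2]
      · exact map_zero _
    · rw [psi_not hP V hx, psi_not hP V hx, DG.ud_apply]
      refine Prod.ext ?_ (Prod.ext ?_ ?_)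
      · change (V.twist P hP).i x 0 + (V.twist P hP).d x 0 = 0
        rw [map_zero, map_zero, add_zero]
      · exact map_zero _
      · change V.td x (0, 0, v) = (0, 0, V.d x v)
        rw [DG.td_apply, map_zero, map_zero, map_zero, add_zero]
  a_f {x y l} h v := by
    change (V.twist P hP).uinc P y ((V.twist P hP).uout P x y l (psi hP V x v)) =
      psi hP V y (V.a x y l v)
    by_cases hy : P y
    · have hx : ¬ P x := hP _ _ _ (Γ.symm h) hy
      rw [psi_not hP V hx, DG.uout_not hx, DG.uinc_of hy, psi_of hP V hy]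
      have h1 : (V.twist P hP).a x y l (0, 0, v) = (0, V.sg x y l v, 0) := by
        change V.tinc P x y l (V.tval P x (0, 0, v)) = _
        rw [DG.tval_not hx, DG.tinc_of hy]
      have h2 : V.tval P y (0, V.sg x y l v, 0) = V.a x y l v := by
        rw [DG.tval_of hy, map_zero, zero_add, V.i_sg (Γ.symm h)]
      rw [h1]
      refine Prod.ext ?_ (Prod.ext ?_ rfl)
      · change V.th P y (0, V.sg x y l v, 0) = _
        rw [DG.th_of hy, map_zero, zero_add, V.i_sg (Γ.symm h)]
      · funext p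
        change V.tinc P y p.1.1 p.1.2 (V.tval P y (0, V.sg x y l v, 0)) = _
        rw [h2, DG.tinc_not (nb_not hP hy p)]
    · rw [DG.uinc_not hy, psi_not hP V hy]
      by_cases hx : P x
      · rw [psi_of hP V hx, DG.uout_of hx, DG.comp_of h]
      · rw [psi_not hP V hx, DG.uout_not hx]
        have h1 : (V.twist P hP).a x y l (0, 0, v) = (0, 0, V.a x y l v) := by
          change V.tinc P x y l (V.tval P x (0, 0, v)) = _
          rw [DG.tval_not hx, DG.tinc_not hy]
        rw [h1]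
  h_f x v := by
    change (V.twist P hP).uh P x (psi hP V x v) = psi hP V x (V.h x v)
    by_cases hx : P x
    · rw [psi_of hP V hx, psi_of hP V hx, DG.uh_of hx]
      refine Prod.ext ?_ (Prod.ext ?_ rfl)
      · change V.th P x (v, 0, 0) = _
        rw [DG.th_of hx, map_zero, add_zero]
      · funext p
        change V.tinc P x p.1.1 p.1.2 (V.tval P x (v, 0, 0)) = _
        rw [DG.tval_of hx, map_zero, add_zero, DG.tinc_not (nb_not hP hx p)]
    · rw [psi_not hP V hx, psi_not hP V hx, DG.uh_not hx]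
      refine Prod.ext rfl (Prod.ext rfl ?_)
      change V.th P x (0, 0, v) = _
      rw [DG.th_not hx]
  gr_f {x n v} hv := by
    change psi hP V x v ∈ (V.twist P hP).ugr P x n
    by_cases hx : P x
    · rw [psi_of hP V hx]
      refine (DG.mem_ugr_of hx).2 ⟨?_, ?_, rfl⟩
      · change (v, 0, 0) ∈ V.tgr P x (n - 1)
        refine (DG.mem_tgr_of hx).2 ⟨?_, Submodule.zero_mem _, rfl⟩
        rwa [sub_add_cancel]
      · refine DG.mem_grN.2 fun p => ?_
        change (0, 0, V.a x p.1.1 p.1.2 v) ∈ V.tgr P p.1.1 n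
        exact (DG.mem_tgr_not (nb_not hP hx p)).2 ⟨rfl, rfl, V.gr_a p.2 hv⟩
    · rw [psi_not hP V hx]
      refine (DG.mem_ugr_not hx).2 ⟨rfl, rfl, ?_⟩
      exact (DG.mem_tgr_not hx).2 ⟨rfl, rfl, hv⟩

theorem Psi_QI : (Psi hP V).QI := by
  intro x
  by_cases hx : P x
  · constructor
    · rintro n v hv hd ⟨⟨⟨g, ν, v0⟩, μ, w⟩, hz, hd'⟩
      have hd1 : (V.twist P hP).ud x ((g, ν, v0), μ, w) = psi hP V x v := hd'
      rw [psi_of hP V hx, DG.ud_apply, twist_i_of hP V hx] at hd1
      obtain ⟨h1, -, -⟩ := (DG.mem_ugr_of hx).1 hz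
      obtain ⟨h2, -, -⟩ := (DG.mem_tgr_of hx).1 h1
      refine ⟨g, by rwa [sub_add_cancel] at h2, ?_⟩
      have h3 : (0 : V.V x) + (V.td x (g, ν, v0)).1 = v := congrArg (fun z => z.1.1) hd1
      rwa [zero_add, DG.td_apply] at h3
    · rintro n ⟨⟨g, ν, v0⟩, μ, w⟩ hz hd'
      have hd1 : (V.twist P hP).ud x ((g, ν, v0), μ, w) = 0 := hd'
      rw [DG.ud_apply, twist_i_of hP V hx] at hd1
      obtain ⟨h1, h1', h1''⟩ := (DG.mem_ugr_of hx).1 hz
      obtain ⟨h2, h2', h2''⟩ := (DG.mem_tgr_of hx).1 h1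
      have h3 : ∀ p : Γ.Nb x, ∃ m, μ p = (0, 0, m) ∧ m ∈ V.gr p.1.1 n := by
        intro p
        have h4 := DG.mem_grN.1 h1' p
        obtain ⟨h5, h6, h7⟩ := (DG.mem_tgr_not (nb_not hP hx p)).1
          (show ((μ p).1, (μ p).2.1, (μ p).2.2) ∈ V.tgr P p.1.1 n from h4)
        exact ⟨_, Prod.ext h5 (Prod.ext h6 rfl), h7⟩
      choose m hm hm' using h3
      have hμ : μ = fun p => (0, 0, m p) := funext hm
      subst hμ
      have h4 : (fun p : Γ.Nb x => V.tval P p.1.1 (0, 0, m p)) = m := by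
        funext p
        rw [DG.tval_not (nb_not hP hx p)]
      have e1 : (0 : V.V x) + (V.td x (g, ν, v0)).1 = 0 := congrArg (fun z => z.1.1) hd1
      have e2 : (fun p : Γ.Nb x => V.tval P p.1.1 (0, 0, m p)) + (V.td x (g, ν, v0)).2.1 = 0 :=
        congrArg (fun z => z.1.2.1) hd1
      rw [DG.td_apply] at e1 e2
      rw [h4] at e2
      rw [zero_add] at e1
      refine ⟨g, by rwa [sub_add_cancel] at h2, e1, (0, fun p => (0, 0, ν p), 0), ?_, ?_⟩
      · refine (DG.mem_ugr_of hx).2 ⟨Submodule.zero_mem _, ?_, rfl⟩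
        refine DG.mem_grN.2 fun p => ?_
        exact (DG.mem_tgr_not (nb_not hP hx p)).2 ⟨rfl, rfl, DG.mem_grN.1 h2' p⟩
      · change (V.twist P hP).ud x (0, fun p => (0, 0, ν p), 0) =
          ((g, ν, v0), (fun p => (0, 0, m p)), w) - psi hP V x g
        rw [psi_of hP V hx, DG.ud_apply, twist_i_of hP V hx]
        refine Prod.ext ?_ (Prod.ext ?_ ?_)
        · change (0, (fun p : Γ.Nb x => V.tval P p.1.1 (0, 0, ν p)), 0) +
            (V.twist P hP).d x 0 = (g, ν, v0) - (g, 0, 0)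
          rw [map_zero, add_zero, h2'']
          refine Prod.ext ?_ (Prod.ext ?_ ?_)
          · exact (sub_self _).symm
          · change (fun p : Γ.Nb x => V.tval P p.1.1 (0, 0, ν p)) = ν - 0
            rw [sub_zero]
            funext p
            rw [DG.tval_not (nb_not hP hx p)]
          · exact (sub_self _).symm
        · funext p
          change V.td p.1.1 (0, 0, ν p) = (0, 0, m p) - (0, 0, V.a x p.1.1 p.1.2 g)
          rw [DG.td_apply, map_zero, map_zero, map_zero, add_zero]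
          refine Prod.ext (sub_self _).symm (Prod.ext (sub_self _).symm ?_)
          change V.d p.1.1 (ν p) = m p - V.a x p.1.1 p.1.2 g
          have e3 : m p + (V.a x p.1.1 p.1.2 g + V.d p.1.1 (ν p)) = 0 := congrFun e2 p
          apply c2_eq k
          rw [sub_eq_add_neg, c2_neg k, ← e3]
          abel
        · change (V.twist P hP).d x 0 = w - 0
          rw [map_zero, h1'', sub_zero]
  · constructor
    · rintro n v hv hd ⟨⟨t, μ, w⟩, hz, hd'⟩
      have hd1 : (V.twist P hP).ud x (t, μ, w) = psi hP V x v := hd'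
      rw [psi_not hP V hx, DG.ud_apply] at hd1
      obtain ⟨-, -, h1⟩ := (DG.mem_ugr_not hx).1 hz
      obtain ⟨g, ν, v'⟩ := w
      obtain ⟨-, -, h2⟩ := (DG.mem_tgr_not hx).1 h1
      refine ⟨v', h2, ?_⟩
      have h3 : (V.td x (g, ν, v')).2.2 = v := congrArg (fun z => z.2.2.2.2) hd1
      rwa [DG.td_apply] at h3
    · rintro n ⟨t, μ, w⟩ hz hd'
      have hd1 : (V.twist P hP).ud x (t, μ, w) = 0 := hd'
      rw [DG.ud_apply] at hd1
      obtain ⟨h1, h2, h3⟩ := (DG.mem_ugr_not hx).1 hz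
      obtain ⟨g, ν, v'⟩ := w
      obtain ⟨h4, h5, h6⟩ := (DG.mem_tgr_not hx).1 h3
      have h7 : (V.td x (g, ν, v')).2.2 = 0 := congrArg (fun z => z.2.2.2.2) hd1
      rw [DG.td_apply] at h7
      refine ⟨v', h6, h7, 0, Submodule.zero_mem _, ?_⟩
      change _ = (t, μ, (g, ν, v')) - psi hP V x v'
      rw [psi_not hP V hx, h1, h2, h4, h5, map_zero, sub_self]

theorem inv2 : Sim ((V.twist P hP).twistInv P hP) V := (Sim.of_hom _ (Psi_QI hP V)).symm

/-! ### `twist (twistInv V) → V` -/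

/-- the map -/
def phi (x : X) : (V.twistInv P hP).TV x →ₗ[k] V.V x :=
  if P x then (LinearMap.fst k _ _).comp (LinearMap.fst k (V.TV x) _) +
      (V.i x).comp ((LinearMap.pi fun p => (LinearMap.snd k _ _).comp
        ((LinearMap.snd k (V.V p.1.1) _).comp (LinearMap.proj p))).comp
          ((LinearMap.fst k ((V.twistInv P hP).N x) _).comp (LinearMap.snd k (V.TV x) _)))
  else (LinearMap.snd k _ _).comp ((LinearMap.snd k (V.V x) _).comp
    ((LinearMap.snd k ((V.twistInv P hP).N x) (V.TV x)).comp (LinearMap.snd k (V.TV x) _)))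

theorem phi_of {x : X} (hx : P x) (u : V.TV x) (ν : (V.twistInv P hP).N x) (u2 : V.TV x) :
    phi hP V x (u, ν, u2) = u.1 + V.i x (fun p : Γ.Nb x => (ν p).2.2) := by
  simp only [phi, if_pos hx]
  rfl

theorem phi_not {x : X} (hx : ¬ P x) (u : V.TV x) (ν : (V.twistInv P hP).N x) (u2 : V.TV x) :
    phi hP V x (u, ν, u2) = u2.2.2 := by
  simp only [phi, if_neg hx]
  rfl

theorem uinc_fst {x : X} (hx : P x) (v : V.V x) : (V.uinc P x v).1 = V.h x v := by
  rw [DG.uinc_of hx]

theorem sum_uout {x : X} (hx : P x) (ν : (V.twistInv P hP).N x) :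
    (∑ p : Γ.Nb x, V.uout P p.1.1 x p.1.2 (ν p)) = V.i x (fun p : Γ.Nb x => (ν p).2.2) := by
  rw [DG.i_apply]
  refine Finset.sum_congr rfl fun p _ => ?_
  have h1 : ν p = ((ν p).1, (ν p).2.1, (ν p).2.2) := rfl
  rw [h1, DG.uout_not (nb_not hP hx p)]

/-- the value of the cone at `x ∈ P` -/
theorem tval_twistInv {x : X} (hx : P x) (z : (V.twistInv P hP).TV x) :
    (V.twistInv P hP).tval P x z = V.uinc P x (phi hP V x z) := by
  obtain ⟨⟨g, ν0, v0⟩, ν, u2⟩ := z
  rw [DG.tval_of hx, twistInv_i hP V, sum_uout hP V hx, phi_of hP V hx, map_add]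
  congr 1
  change V.uh P x (g, ν0, v0) = _
  rw [DG.uh_of hx, DG.uinc_of hx]

/-- the natural map `twist (twistInv V) → V` -/
def Phi : HomS ((V.twistInv P hP).twist P hP) V where
  f x := phi hP V x
  d_f x z := by
    change V.d x (phi hP V x z) = phi hP V x ((V.twistInv P hP).td x z)
    obtain ⟨⟨g, ν0, v0⟩, ν, ⟨g2, ν2, v2⟩⟩ := z
    rw [DG.td_apply]
    by_cases hx : P x
    · rw [phi_of hP V hx, phi_of hP V hx]
      change V.d x (g + V.i x fun p : Γ.Nb x => (ν p).2.2) =
        (V.ud x (g, ν0, v0)).1 + V.i x (fun p : Γ.Nb x =>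
          ((V.twistInv P hP).j x (g, ν0, v0) p + V.ud p.1.1 (ν p)).2.2)
      have h1 : (fun p : Γ.Nb x =>
          ((V.twistInv P hP).j x (g, ν0, v0) p + V.ud p.1.1 (ν p)).2.2) =
          ν0 + V.dN x (fun p : Γ.Nb x => (ν p).2.2) := by
        funext p
        change (V.uinc P p.1.1 (V.uout P x p.1.1 p.1.2 (g, ν0, v0))).2.2 +
          (V.ud p.1.1 (ν p)).2.2 = ν0 p + V.d p.1.1 (ν p).2.2
        rw [DG.uinc_not (nb_not hP hx p), DG.uout_of hx, DG.comp_of p.2]
        rfl
      rw [h1, DG.ud_apply, map_add, map_add, V.d_i]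
      have h3 := c2_add k (V.i x ν0)
      change V.d x g + V.i x (V.dN x fun p : Γ.Nb x => (ν p).2.2) =
        (V.i x ν0 + V.d x g) + (V.i x ν0 + V.i x (V.dN x fun p : Γ.Nb x => (ν p).2.2))
      rw [add_add_add_comm, h3, zero_add]
    · rw [phi_not hP V hx, phi_not hP V hx]
      change V.d x v2 = (V.ud x (g2, ν2, v2)).2.2
      rw [DG.ud_apply]
  a_f {x y l} h z := by
    change V.a x y l (phi hP V x z) =
      phi hP V y ((V.twistInv P hP).tinc P x y l ((V.twistInv P hP).tval P x z))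
    by_cases hy : P y
    · have hx : ¬ P x := hP _ _ _ (Γ.symm h) hy
      obtain ⟨u, ν, ⟨g2, ν2, v2⟩⟩ := z
      rw [DG.tval_not hx, DG.tinc_of hy, phi_of hP V hy, phi_not hP V hx]
      change V.a x y l v2 = (0 : V.V y) + _
      rw [zero_add, ← V.i_sg (Γ.symm h) v2]
      congr 1
      funext p
      rw [DG.sg_of _ (Γ.symm h), DG.sg_of _ (Γ.symm h)]
      by_cases hp : p = ⟨(x, l), Γ.symm h⟩
      · subst hp
        rw [Pi.single_eq_same, Pi.single_eq_same]
      · rw [Pi.single_eq_of_ne hp, Pi.single_eq_of_ne hp]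
        rfl
    · rw [DG.tinc_not hy, phi_not hP V hy]
      change _ = (V.uinc P y (V.uout P x y l ((V.twistInv P hP).tval P x z))).2.2
      rw [DG.uinc_not hy]
      by_cases hx : P x
      · rw [tval_twistInv hP V hx, DG.uout_uinc h]
      · obtain ⟨u, ν, ⟨g2, ν2, v2⟩⟩ := z
        rw [DG.tval_not hx, phi_not hP V hx, DG.uout_not hx]
  h_f x z := by
    change V.h x (phi hP V x z) = phi hP V x ((V.twistInv P hP).th P x z)
    by_cases hx : P x
    · have h1 : (V.twistInv P hP).th P x z = (V.uinc P x (phi hP V x z), 0, 0) := by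
        rw [← tval_twistInv hP V hx]
        obtain ⟨u, ν, u2⟩ := z
        rw [DG.th_of hx, DG.tval_of hx]
      rw [h1]
      generalize phi hP V x z = w
      rw [phi_of hP V hx, uinc_fst V hx]
      change _ = _ + V.i x 0
      rw [map_zero, add_zero]
    · obtain ⟨u, ν, ⟨g2, ν2, v2⟩⟩ := z
      rw [DG.th_not hx, phi_not hP V hx, phi_not hP V hx]
      change _ = (V.uh P x (g2, ν2, v2)).2.2
      rw [DG.uh_not hx]
  gr_f {x n z} hz := by
    have hz' : z ∈ (V.twistInv P hP).tgr P x n := hz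
    change phi hP V x z ∈ V.gr x n
    obtain ⟨⟨g, ν0, v0⟩, ν, ⟨g2, ν2, v2⟩⟩ := z
    by_cases hx : P x
    · rw [phi_of hP V hx]
      obtain ⟨h1, h2, h3⟩ := (DG.mem_tgr_of hx).1 hz'
      obtain ⟨h4, h5, h6⟩ := (DG.mem_ugr_of hx).1 h1
      refine Submodule.add_mem _ (by rwa [add_sub_cancel_right] at h4) (DG.gr_i ?_)
      refine DG.mem_grN.2 fun p => ?_
      exact ((DG.mem_ugr_not (nb_not hP hx p)).1
        (show ((ν p).1, (ν p).2.1, (ν p).2.2) ∈ V.ugr P p.1.1 n from DG.mem_grN.1 h2 p)).2.2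
    · rw [phi_not hP V hx]
      obtain ⟨h1, h2, h3⟩ := (DG.mem_tgr_not hx).1 hz'
      exact ((DG.mem_ugr_not hx).1 h3).2.2

theorem Phi_QI : (Phi hP V).QI := by
  intro x
  by_cases hx : P x
  · constructor
    · rintro n ⟨⟨g, ν0, v0⟩, ν, u2⟩ hz hd ⟨w, hw, hw'⟩
      have hd1 : (V.twistInv P hP).td x ((g, ν0, v0), ν, u2) = 0 := hd
      have hw1 : V.d x w = phi hP V x ((g, ν0, v0), ν, u2) := hw'
      rw [phi_of hP V hx] at hw1
      rw [DG.td_apply] at hd1
      obtain ⟨h1, h2, h3⟩ := (DG.mem_tgr_of hx).1 hz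
      obtain ⟨h4, h5, h6⟩ := (DG.mem_ugr_of hx).1 h1
      have h7 : ∀ p : Γ.Nb x, ∃ m, ν p = (0, 0, m) ∧ m ∈ V.gr p.1.1 n := by
        intro p
        obtain ⟨h8, h9, h10⟩ := (DG.mem_ugr_not (nb_not hP hx p)).1
          (show ((ν p).1, (ν p).2.1, (ν p).2.2) ∈ V.ugr P p.1.1 n from DG.mem_grN.1 h2 p)
        exact ⟨_, Prod.ext h8 (Prod.ext h9 rfl), h10⟩
      choose m hm hm' using h7
      have hν : ν = fun p => (0, 0, m p) := funext hm
      subst hν
      have e0 : (fun p : Γ.Nb x => (((0, 0, m p) : V.TV p.1.1)).2.2) = m := rfl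
      rw [e0] at hw1
      have e1 : ∀ p : Γ.Nb x, ν0 p = V.d p.1.1 (m p) := by
        intro p
        have e2 : ((V.twistInv P hP).j x (g, ν0, v0) p + V.ud p.1.1 (0, 0, m p)).2.2 = 0 :=
          congrArg (fun z => (z.2.1 p).2.2) hd1
        have e3 : ((V.uinc P p.1.1 (V.uout P x p.1.1 p.1.2 (g, ν0, v0))).2.2 +
          (V.ud p.1.1 (0, 0, m p)).2.2) = 0 := e2
        rw [DG.uinc_not (nb_not hP hx p), DG.uout_of hx, DG.comp_of p.2, DG.ud_apply] at e3
        exact c2_eq k _ _ e3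
      refine ⟨((w, m, 0), 0, 0), ?_, ?_⟩
      · refine (DG.mem_tgr_of hx).2 ⟨(DG.mem_ugr_of hx).2 ⟨?_, ?_, rfl⟩,
          Submodule.zero_mem _, rfl⟩
        · rwa [sub_add_cancel]
        · rw [sub_add_cancel]
          exact DG.mem_grN.2 hm'
      · change (V.twistInv P hP).td x ((w, m, 0), 0, 0) = _
        rw [DG.td_apply]
        refine Prod.ext ?_ (Prod.ext ?_ ?_)
        · change V.ud x (w, m, 0) = (g, ν0, v0)
          rw [DG.ud_apply, hw1, h6, map_zero]
          refine Prod.ext ?_ (Prod.ext ?_ rfl)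
          · change V.i x m + (g + V.i x m) = g
            apply c2_eq k
            abel_nf
            simp only [c2_int k, add_zero]
          · funext p
            exact (e1 p).symm
        · funext p
          change V.uinc P p.1.1 (V.uout P x p.1.1 p.1.2 (w, m, 0)) + V.ud p.1.1 0 = (0, 0, m p)
          rw [map_zero, add_zero, DG.uinc_not (nb_not hP hx p), DG.uout_of hx, DG.comp_of p.2]
        · change V.ud x 0 = u2
          rw [map_zero, h3]
    · intro n v hv hd
      refine ⟨((v, 0, 0), 0, 0), ?_, ?_, 0, Submodule.zero_mem _, ?_⟩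
      · refine (DG.mem_tgr_of hx).2 ⟨(DG.mem_ugr_of hx).2 ⟨?_, Submodule.zero_mem _, rfl⟩,
          Submodule.zero_mem _, rfl⟩
        rwa [add_sub_cancel_right]
      · change (V.twistInv P hP).td x ((v, 0, 0), 0, 0) = 0
        rw [DG.td_apply]
        refine Prod.ext ?_ (Prod.ext ?_ ?_)
        · change V.ud x (v, 0, 0) = 0
          rw [DG.ud_apply, hd, map_zero, map_zero, map_zero, add_zero]
          rfl
        · funext p
          change V.uinc P p.1.1 (V.uout P x p.1.1 p.1.2 (v, 0, 0)) + V.ud p.1.1 0 = 0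
          rw [map_zero, add_zero, DG.uout_of hx, map_zero, map_zero]
        · exact map_zero _
      · change V.d x 0 = v - phi hP V x ((v, 0, 0), 0, 0)
        rw [phi_of hP V hx, map_zero]
        change 0 = v - (v + V.i x 0)
        rw [map_zero, add_zero, sub_self]
  · constructor
    · rintro n ⟨u, ν, ⟨g2, ν2, v2⟩⟩ hz hd ⟨w, hw, hw'⟩
      have hd1 : (V.twistInv P hP).td x (u, ν, (g2, ν2, v2)) = 0 := hd
      have hw1 : V.d x w = phi hP V x (u, ν, (g2, ν2, v2)) := hw'
      rw [phi_not hP V hx] at hw1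
      obtain ⟨h1, h2, h3⟩ := (DG.mem_tgr_not hx).1 hz
      obtain ⟨h4, h5, h6⟩ := (DG.mem_ugr_not hx).1 h3
      refine ⟨(0, 0, (0, 0, w)), (DG.mem_tgr_not hx).2 ⟨rfl, rfl,
        (DG.mem_ugr_not hx).2 ⟨rfl, rfl, hw⟩⟩, ?_⟩
      change (V.twistInv P hP).td x (0, 0, (0, 0, w)) = _
      rw [DG.td_apply]
      refine Prod.ext ?_ (Prod.ext ?_ ?_)
      · change V.ud x 0 = u
        rw [map_zero, h1]
      · change _ + _ = ν
        rw [map_zero, map_zero, add_zero, h2]
      · change V.ud x (0, 0, w) = (g2, ν2, v2)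
        rw [DG.ud_apply, map_zero, map_zero, map_zero, add_zero, hw1, h4, h5]
    · intro n v hv hd
      refine ⟨(0, 0, (0, 0, v)), (DG.mem_tgr_not hx).2 ⟨rfl, rfl,
        (DG.mem_ugr_not hx).2 ⟨rfl, rfl, hv⟩⟩, ?_, 0, Submodule.zero_mem _, ?_⟩
      · change (V.twistInv P hP).td x (0, 0, (0, 0, v)) = 0
        rw [DG.td_apply]
        refine Prod.ext ?_ (Prod.ext ?_ ?_)
        · change V.ud x 0 = 0
          rw [map_zero]
        · change _ + _ = 0
          rw [map_zero, map_zero, add_zero]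
        · change V.ud x (0, 0, v) = 0
          rw [DG.ud_apply, map_zero, map_zero, map_zero, add_zero, hd]
          rfl
      · change V.d x 0 = v - phi hP V x (0, 0, (0, 0, v))
        rw [phi_not hP V hx, map_zero, sub_self]

theorem inv1 : Sim ((V.twistInv P hP).twist P hP) V := Sim.of_hom _ (Phi_QI hP V)

end H895

end Vale.Agent.P203.Dg
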