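import Vale.Agent.P203.H895.Wire
import Vale.Agent.P203.H895.Facts

namespace Vale.Agent.P203.H895

/-- The `K(π,1)` theorem: the orbit space `Y/W` has no higher homotopy groups. -/
theorem kpi {S : Type} [Finite S] (M : CoxeterMatrix S) (n : ℕ) (hn : 2 ≤ n) (x : OrbitSpace M) :
    Subsingleton (HomotopyGroup (Fin n) (OrbitSpace M) x) :=
  final M (Dg.H895.twistFacts _ _) n hn x

end Vale.Agent.P203.H895
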