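import Vale.Agent.P203.Top.Final
import Vale.Agent.P203.Top.CellCover
import Vale.Agent.P203.Glue.Key
import Vale.Agent.P203.Glue.OfTop
import Vale.Agent.P203.Fold.Conn
import Vale.Agent.P203.Fold.Z955
import Vale.Agent.P203.Fold.Key
import Vale.Agent.P203.KK.Stmt
import Vale.Agent.P203.Morse.Good
import Vale.Agent.P203.Mod.UnfW
import Vale.Agent.P203.Mod.Bridge
import Vale.Agent.P203.Dg.Unf

/-! P203: the final wiring. -/

set_option linter.all false

namespace Vale.Agent.P203.H895

open Vale.Agent.P203.Sph Vale.Agent.P203.Gar Vale.Agent.P203.Top Vale.Agent.P203.Unf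

section

variable {S : Type} [Fintype S] [DecidableEq S] (M : CoxeterMatrix S)

theorem good_of {Good : Set (ACell M) → Prop} {Rel : Set (ACell M) → Set (ACell M) → Prop}
    (h : GoodTheory Good Rel)
    (lcm : ∀ U : Finset S, Spherical M U → LcmProp M U)
    (base : ∀ g : ArtinGroup M, ∃ K : Spec.KeySys M, Spec.IsBase K.toKeyData g) :
    Good Set.univ := by
  refine Glue.good_univ (Glue.posetTheory_of_top h) ?_
  refine Morse.main _ (fun a U hU => Glue.W_Q_of_spherical _ lcm a hU) (fun a => ?_) 1 _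
  obtain ⟨K, hK⟩ := base a
  exact ⟨Glue.keyOf K, Glue.nice_of (FoldL1.conn K) (FoldZ.zstmt K), Glue.framed_of hK⟩

/-- the lcm property from the algebra -/
theorem lcm_of (h : Fold.AlgMain (ZMod 2) M (unfF M) Sum.inl) (U : Finset S) :
    LcmProp M U :=
  Mod.lcmProp_of_algMain h (Mod.unfWeights M) (Mod.unfF_ne M) U

theorem algMain_of (F : Dg.TwistFacts (ZMod 2) (unfF M)) :
    Fold.AlgMain (ZMod 2) M (unfF M) Sum.inl :=
  Dg.algMain F (Dg.unfEmb M)

theorem framed_unfF : Fold.Framed (unfF M) (Sum.inl : S → S ⊕ S) := by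
  intro s
  refine ⟨.inl (s, fun e => 0), rfl, .inr (s, fun e => 0), 0, ?_, ?_⟩
  · rw [unfF_adj]
    simp [nadjF]
  · intro t
    rw [unfF_π_inr]
    exact Sum.inr_ne_inl

theorem base_of (h : Fold.AlgMain (ZMod 2) M (unfF M) Sum.inl) (g : ArtinGroup M) :
    ∃ K : Spec.KeySys M, Spec.IsBase K.toKeyData g :=
  KK.exists_base (Mod.unfWeights M) (framed_unfF M) h g

end

/-- The final statement from the two remaining inputs. -/
theorem final {S : Type} [Finite S] (M : CoxeterMatrix S)
    (F : ∀ [Fintype S] [DecidableEq S], Dg.TwistFacts (ZMod 2) (unfF M))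
    (n : ℕ) (hn : 2 ≤ n) (x : OrbitSpace M) :
    Subsingleton (HomotopyGroup (Fin n) (OrbitSpace M) x) := by
  classical
  have := Fintype.ofFinite S
  have alg := algMain_of M F
  exact subsingleton_orbit posetCover_cellProj cellProj_surjective
    (fun Good Rel h => good_of M h (fun U _ => lcm_of M alg U) (base_of M alg)) hn x

end Vale.Agent.P203.H895
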